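import Mathlib
import Vale.Agent.P150.Beta1.Statements

/-!
# The events of the final assembly are closed sets, and their intersections keep full probability
-/

namespace Vale.Agent.P150.Beta1

open MeasureTheory ProbabilityTheory Finset Filter Real
open scoped ENNReal Topology

/-- Closed events of probability tending to one have intersections of probability tending to one. -/
lemma tendsto_inter {A B : ∀ n, Set (Fin n × Fin n → ℝ)} (hA : ∀ n, MeasurableSet (A n))
    (hB : ∀ n, MeasurableSet (B n))
    (ha : Tendsto (fun n : ℕ => Measure.pi (fun _ : Fin n × Fin n => gaussianReal 0 1) (A n))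
      atTop (𝓝 1))
    (hb : Tendsto (fun n : ℕ => Measure.pi (fun _ : Fin n × Fin n => gaussianReal 0 1) (B n))
      atTop (𝓝 1)) :
    Tendsto (fun n : ℕ => Measure.pi (fun _ : Fin n × Fin n => gaussianReal 0 1) (A n ∩ B n))
      atTop (𝓝 1) := by
  have hc : ∀ {S : ∀ n, Set (Fin n × Fin n → ℝ)}, (∀ n, MeasurableSet (S n)) →
      Tendsto (fun n : ℕ => Measure.pi (fun _ : Fin n × Fin n => gaussianReal 0 1) (S n))
        atTop (𝓝 1) →
      Tendsto (fun n : ℕ => Measure.pi (fun _ : Fin n × Fin n => gaussianReal 0 1) (S n)ᶜ)
        atTop (𝓝 0) := fun {S} hS h => by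
    have h1 := ENNReal.Tendsto.sub (tendsto_const_nhds (x := (1 : ℝ≥0∞))) h
      (Or.inl ENNReal.one_ne_top)
    rw [tsub_self] at h1
    exact h1.congr fun n => (prob_compl_eq_one_sub (hS n)).symm
  have h1 := ENNReal.Tendsto.sub (tendsto_const_nhds (x := (1 : ℝ≥0∞)))
    ((hc hA ha).add (hc hB hb)) (Or.inl ENNReal.one_ne_top)
  simp only [add_zero, tsub_zero] at h1
  refine tendsto_of_tendsto_of_tendsto_of_le_of_le h1 tendsto_const_nhds (fun n => ?_)
    fun n => prob_le_one
  refine tsub_le_iff_right.2 ?_
  refine le_trans ?_ (add_le_add le_rfl (measure_union_le _ _))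
  rw [← Set.compl_inter, ← measure_univ (μ := Measure.pi fun _ : Fin n × Fin n => gaussianReal 0 1),
    ← Set.union_compl_self (A n ∩ B n)]
  exact measure_union_le _ _

section

variable {n : ℕ} (β : ℝ)

lemma continuous_skCoupling (i j : Fin n) :
    Continuous fun g : Fin n × Fin n → ℝ => skCoupling β g i j := by
  unfold skCoupling
  split_ifs <;> fun_prop

lemma continuous_gibbs (x : Fin n → Bool) :
    Continuous fun g : Fin n × Fin n → ℝ => gibbs (skCoupling β g) 0 x := by
  have hE : ∀ y, Continuous fun g : Fin n × Fin n → ℝ => exp (energy (skCoupling β g) 0 y) := by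
    intro y
    simp only [energy]
    exact continuous_exp.comp (((continuous_finsetSum _ fun i _ => continuous_finsetSum _ fun j _ =>
      ((continuous_skCoupling β i j).mul continuous_const).mul continuous_const).div_const _).add
      continuous_const)
  exact (hE x).div (continuous_finsetSum _ fun y _ => hE y) fun g =>
    (sum_pos (fun y _ => exp_pos _) univ_nonempty).ne'

lemma continuous_mean {G : (Fin n × Fin n → ℝ) → (Fin n → Bool) → ℝ}
    (hG : ∀ x, Continuous fun g => G g x) :
    Continuous fun g => mean (gibbs (skCoupling β g) 0) (G g) :=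
  continuous_finsetSum _ fun x _ => (continuous_gibbs β x).mul (hG x)

lemma continuous_mean_const (F : (Fin n → Bool) → ℝ) :
    Continuous fun g => mean (gibbs (skCoupling β g) 0) F :=
  continuous_mean β fun _ => continuous_const

lemma continuous_resample (i : Fin n) (f : (Fin n → Bool) → ℝ) (x : Fin n → Bool) :
    Continuous fun g => resample (gibbs (skCoupling β g) 0) i f x :=
  (((continuous_gibbs β _).mul continuous_const).add ((continuous_gibbs β _).mul continuous_const)).div
    ((continuous_gibbs β _).add (continuous_gibbs β _)) fun _ =>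
      (add_pos (gibbs_pos _) (gibbs_pos _)).ne'

lemma continuous_dirichlet (f : (Fin n → Bool) → ℝ) :
    Continuous fun g => dirichlet (gibbs (skCoupling β g) 0) f :=
  (continuous_mean β fun x => continuous_const.mul (continuous_finsetSum _ fun i _ =>
    (continuous_resample β i f x).sub continuous_const)).neg

lemma continuous_variance (f : (Fin n → Bool) → ℝ) :
    Continuous fun g => variance (gibbs (skCoupling β g) 0) f :=
  continuous_mean β fun _ => (continuous_const.sub (continuous_mean_const β f)).pow 2

lemma continuous_psi {u : (Fin n × Fin n → ℝ) → ℝ} {a : ℝ} (ha : 0 < a) (hu : Continuous u)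
    (hpos : ∀ g, 0 < u g) : Continuous fun g => psi a (u g) := by
  simp only [psi]
  exact ((continuous_const.mul ((continuous_const.div hu fun g => (hpos g).ne').log
    fun g => (div_pos ha (hpos g)).ne')).sub continuous_const).add hu

lemma continuous_ent {F : (Fin n → Bool) → ℝ} (hF : ∀ x, 0 < F x) :
    Continuous fun g => ent (gibbs (skCoupling β g) 0) F :=
  continuous_mean β fun x => continuous_psi (hF x) (continuous_mean_const β F)
    fun _ => mean_pos (IsWeight.gibbs _ _) hF

lemma continuous_siteEnt {F : (Fin n → Bool) → ℝ} (hF : ∀ x, 0 < F x) (i : Fin n) :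
    Continuous fun g => siteEnt (gibbs (skCoupling β g) 0) i F :=
  continuous_mean β fun x => continuous_psi (hF x) (continuous_resample β i F x)
    fun _ => resample_pos (IsWeight.gibbs _ _) hF i x

/-- The event of the trap inequality. -/
def trapEvent (C δ : ℝ) (n : ℕ) : Set (Fin n × Fin n → ℝ) :=
  {g | ∀ F : (Fin n → Bool) → ℝ, (∀ x, 0 < F x) →
    ent (gibbs (skCoupling β g) 0) F
      ≤ C * dirichlet (gibbs (skCoupling β g) 0) (fun x => √(F x))
        + δ * n * mean (gibbs (skCoupling β g) 0) F}

/-- The event of the weak Poincaré inequality. -/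
def wpEvent (C c : ℝ) (n : ℕ) : Set (Fin n × Fin n → ℝ) :=
  {g | ∀ (f : (Fin n → Bool) → ℝ) (R : ℝ), (∀ x, |f x| ≤ R) →
    variance (gibbs (skCoupling β g) 0) f
      ≤ C * dirichlet (gibbs (skCoupling β g) 0) f + R ^ 2 * exp (-(c * n))}

/-- The event of the defective inequality. -/
def defEvent (C : ℝ) (n : ℕ) : Set (Fin n × Fin n → ℝ) :=
  {g | ∀ F : (Fin n → Bool) → ℝ, (∀ x, 0 < F x) →
    ent (gibbs (skCoupling β g) 0) F
      ≤ C * ∑ i, siteEnt (gibbs (skCoupling β g) 0) i F
        + C * mean (gibbs (skCoupling β g) 0) F}

/-- The event of a spectral gap at least `κ`. -/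
def gapEvent (κ : ℝ) (n : ℕ) : Set (Fin n × Fin n → ℝ) :=
  {g | ∀ f : (Fin n → Bool) → ℝ,
    κ * variance (gibbs (skCoupling β g) 0) f ≤ dirichlet (gibbs (skCoupling β g) 0) f}

/-- The event of a bound on the quadratic form of the couplings. -/
def normEvent (Λ : ℝ) (n : ℕ) : Set (Fin n × Fin n → ℝ) :=
  {g | ∀ a : Fin n → ℝ, |∑ i, ∑ j, skCoupling β g i j * a i * a j| ≤ Λ * ∑ i, a i ^ 2}

lemma measurableSet_trapEvent (C δ : ℝ) : MeasurableSet (trapEvent β C δ n) := by
  refine IsClosed.measurableSet ?_
  simp only [trapEvent, Set.ofPred_forall]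
  exact isClosed_iInter fun F => isClosed_iInter fun hF => isClosed_le (continuous_ent β hF)
    ((continuous_const.mul (continuous_dirichlet β _)).add
      (continuous_const.mul (continuous_mean_const β F)))

lemma measurableSet_wpEvent (C c : ℝ) : MeasurableSet (wpEvent β C c n) := by
  refine IsClosed.measurableSet ?_
  simp only [wpEvent, Set.ofPred_forall]
  exact isClosed_iInter fun F => isClosed_iInter fun R => isClosed_iInter fun _ =>
    isClosed_le (continuous_variance β F)
      ((continuous_const.mul (continuous_dirichlet β _)).add continuous_const)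

lemma measurableSet_defEvent (C : ℝ) : MeasurableSet (defEvent β C n) := by
  refine IsClosed.measurableSet ?_
  simp only [defEvent, Set.ofPred_forall]
  exact isClosed_iInter fun F => isClosed_iInter fun hF => isClosed_le (continuous_ent β hF)
    ((continuous_const.mul (continuous_finsetSum _ fun i _ => continuous_siteEnt β hF i)).add
      (continuous_const.mul (continuous_mean_const β F)))

lemma measurableSet_gapEvent (κ : ℝ) : MeasurableSet (gapEvent β κ n) := by
  refine IsClosed.measurableSet ?_
  simp only [gapEvent, Set.ofPred_forall]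
  exact isClosed_iInter fun f =>
    isClosed_le (continuous_const.mul (continuous_variance β f)) (continuous_dirichlet β f)

lemma measurableSet_normEvent (Λ : ℝ) : MeasurableSet (normEvent β Λ n) := by
  refine IsClosed.measurableSet ?_
  simp only [normEvent, Set.ofPred_forall]
  exact isClosed_iInter fun a => isClosed_le
    (continuous_finsetSum _ fun i _ => continuous_finsetSum _ fun j _ =>
      ((continuous_skCoupling β i j).mul continuous_const).mul continuous_const).abs continuous_const

end

/-- The operator bound holds with probability tending to one. -/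
theorem tendsto_normEvent {β : ℝ} (hβ : 0 ≤ β) :
    Tendsto (fun n : ℕ => Measure.pi (fun _ : Fin n × Fin n => gaussianReal 0 1)
      (normEvent β (6 * β) n)) atTop (𝓝 1) :=
  tendsto_of_disorderEvent hβ one_pos le_rfl
    (Eventually.of_forall fun n g hg a => (hg.2.2 a).trans_eq (by ring))

end Vale.Agent.P150.Beta1
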