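import Mathlib
import Vale.Agent.P150.Beta1.Assembly.Events

/-!
# Spectral gap from the trap inequality and the weak Poincaré inequality
-/

namespace Vale.Agent.P150.Beta1

open MeasureTheory ProbabilityTheory Finset Filter Real Function
open scoped ENNReal Topology

variable {ι : Type*} [Fintype ι] [DecidableEq ι] {J : ι → ι → ℝ} {h : ι → ℝ}

/-- The Dirichlet form decreases under contractions of the gradient. -/
lemma dirichlet_le_of_deriv2 (hsymm : ∀ i j, J i j = J j i) (hdiag : ∀ i, J i i = 0)
    {F f : (ι → Bool) → ℝ}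
    (hle : ∀ i x, |F (update x i true) - F (update x i false)|
      ≤ |f (update x i true) - f (update x i false)|) :
    dirichlet (gibbs J h) F ≤ dirichlet (gibbs J h) f := by
  rw [dirichlet_eq hsymm hdiag, dirichlet_eq hsymm hdiag]
  refine sum_le_sum fun i _ => sum_le_sum fun x _ => mul_le_mul_of_nonneg_left ?_ (gibbs_pos x).le
  simp only [resid, deriv2, mul_pow, div_pow]
  exact mul_le_mul_of_nonneg_left (div_le_div_of_nonneg_right (sq_le_sq.2 (hle i x)) (by norm_num))
    (sq_nonneg _)

lemma dirichlet_nonneg' (hsymm : ∀ i j, J i j = J j i) (hdiag : ∀ i, J i i = 0)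
    (f : (ι → Bool) → ℝ) : 0 ≤ dirichlet (gibbs J h) f := by
  rw [dirichlet_eq hsymm hdiag]
  exact sum_nonneg fun i _ => sum_nonneg fun x _ => mul_nonneg (gibbs_pos x).le (sq_nonneg _)

lemma abs_sqrt_sq_add_sub_le {ε : ℝ} (hε : 0 < ε) (a b : ℝ) :
    |√(a ^ 2 + ε) - √(b ^ 2 + ε)| ≤ |a - b| := by
  have h1 : |a| ≤ √(a ^ 2 + ε) := Real.abs_le_sqrt (by linarith)
  have h2 : |b| ≤ √(b ^ 2 + ε) := Real.abs_le_sqrt (by linarith)
  have hs : 0 < √(a ^ 2 + ε) + √(b ^ 2 + ε) := by positivity
  refine le_of_mul_le_mul_right ?_ hs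
  calc |√(a ^ 2 + ε) - √(b ^ 2 + ε)| * (√(a ^ 2 + ε) + √(b ^ 2 + ε))
      = |(√(a ^ 2 + ε) - √(b ^ 2 + ε)) * (√(a ^ 2 + ε) + √(b ^ 2 + ε))| := by
        rw [abs_mul, abs_of_nonneg hs.le]
    _ = |(a - b) * (a + b)| := by
        have e1 := Real.sq_sqrt (show 0 ≤ a ^ 2 + ε by positivity)
        have e2 := Real.sq_sqrt (show 0 ≤ b ^ 2 + ε by positivity)
        congr 1
        linear_combination e1 - e2
    _ ≤ _ := by
        rw [abs_mul]
        exact mul_le_mul_of_nonneg_left ((abs_add_le a b).trans (add_le_add h1 h2)) (abs_nonneg _)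

/-- The trap inequality on a function of small support. -/
lemma sq_mean_le_of_trap (hsymm : ∀ i j, J i j = J j i) (hdiag : ∀ i, J i i = 0)
    {C a d : ℝ} (hC : 0 ≤ C)
    (ht : ∀ F : (ι → Bool) → ℝ, (∀ x, 0 < F x) → ent (gibbs J h) F
      ≤ C * dirichlet (gibbs J h) (fun x => √(F x)) + d * mean (gibbs J h) F)
    (G : (ι → Bool) → ℝ) {T : (ι → Bool) → Prop} [DecidablePred T] (hG : ∀ x, ¬T x → G x = 0)
    (hT : mean (gibbs J h) (fun x => if T x then 1 else 0) ≤ exp (-a)) :
    (a - log 2 - d) * mean (gibbs J h) (fun x => G x ^ 2) ≤ C * dirichlet (gibbs J h) G := by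
  set μ := gibbs J h
  have hρ : IsWeight μ := IsWeight.gibbs J h
  set V := mean μ fun x => G x ^ 2 with hV
  have key : ∀ ε > 0, a * V - (V + ε) * log 2 ≤ C * dirichlet μ G + d * (V + ε) + ε * |a| := by
    intro ε hε
    set F : (ι → Bool) → ℝ := fun x => G x ^ 2 + ε with hF
    have hFp : ∀ x, 0 < F x := fun x => by positivity
    have hm : mean μ F = V + ε := by
      simp only [mean, hF, hV, mul_add, sum_add_distrib, ← sum_mul, hρ.2, one_mul]
    set φ : (ι → Bool) → ℝ := fun x => if T x then a else 0 with hφ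
    have h1 := mean_mul_le_ent hρ hFp φ
    have h2 : log (mean μ fun x => exp (φ x)) ≤ log 2 := by
      refine log_le_log (mean_pos hρ fun x => exp_pos _) ?_
      calc mean μ (fun x => exp (φ x)) ≤ mean μ (fun x => 1 + exp a * if T x then 1 else 0) :=
            sum_le_sum fun x _ => mul_le_mul_of_nonneg_left (by
              simp only [hφ]
              split_ifs <;> simp) (hρ.1 x).le
        _ = 1 + exp a * mean μ (fun x => if T x then 1 else 0) := by
            simp only [mean, mul_add, mul_one, sum_add_distrib, hρ.2, mul_sum]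
            congr 1
            exact sum_congr rfl fun x _ => by ring
        _ ≤ 1 + exp a * exp (-a) := by gcongr
        _ = 2 := by rw [← exp_add]; norm_num
    have h3 : a * V - ε * |a| ≤ mean μ fun x => F x * φ x := by
      calc a * V - ε * |a| = mean μ (fun x => a * G x ^ 2 - ε * |a|) := by
            simp only [mean, hV, mul_sub, sum_sub_distrib, ← sum_mul, hρ.2, one_mul, mul_sum]
            congr 1
            exact sum_congr rfl fun x _ => by ring
        _ ≤ _ := sum_le_sum fun x _ => mul_le_mul_of_nonneg_left (by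
            simp only [hF, hφ]
            by_cases hx : T x
            · rw [if_pos hx]
              linarith [mul_le_mul_of_nonneg_left (neg_abs_le a) hε.le]
            · rw [if_neg hx, hG x hx]
              simp only [ne_eq, OfNat.ofNat_ne_zero, not_false_eq_true, zero_pow, mul_zero, zero_sub]
              have := mul_nonneg hε.le (abs_nonneg a)
              linarith) (hρ.1 x).le
    have h4 : dirichlet μ (fun x => √(F x)) ≤ dirichlet μ G :=
      dirichlet_le_of_deriv2 hsymm hdiag fun i x => abs_sqrt_sq_add_sub_le hε _ _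
    have h5 := ht F hFp
    have h6 := mul_le_mul_of_nonneg_left h4 hC
    have h7 := mul_le_mul_of_nonneg_left h2 (mean_pos hρ hFp).le
    rw [hm] at h1 h5 h7
    linarith
  refine le_of_forall_pos_le_add fun η hη => ?_
  set K := |log 2| + |d| + |a| + 1
  have hK : 0 < K := by positivity
  have := key (η / K) (by positivity)
  have e : η / K * K = η := div_mul_cancel₀ η hK.ne'
  have := abs_nonneg (log 2)
  have := mul_le_mul_of_nonneg_left
    (show log 2 + d + |a| ≤ K by linarith [le_abs_self (log 2), le_abs_self d]) (div_pos hη hK).le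
  linarith

/-- Deterministic gap from the two inequalities. -/
theorem variance_le_of_trap_wp (hsymm : ∀ i j, J i j = J j i) (hdiag : ∀ i, J i i = 0)
    {C C' a d r : ℝ} (hC : 0 ≤ C) (hpos : 0 < a - log 2 - d) (hr : exp a * r ≤ 1 / 4)
    (ht : ∀ F : (ι → Bool) → ℝ, (∀ x, 0 < F x) → ent (gibbs J h) F
      ≤ C * dirichlet (gibbs J h) (fun x => √(F x)) + d * mean (gibbs J h) F)
    (hw : ∀ (f : (ι → Bool) → ℝ) (R : ℝ), (∀ x, |f x| ≤ R) → variance (gibbs J h) f
      ≤ C' * dirichlet (gibbs J h) f + R ^ 2 * r)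
    (f : (ι → Bool) → ℝ) :
    variance (gibbs J h) f
      ≤ 4 * (|C'| + C / (a - log 2 - d)) * dirichlet (gibbs J h) f := by
  set μ := gibbs J h with hμ
  have hρ : IsWeight μ := IsWeight.gibbs J h
  set m := mean μ f with hm
  set f0 : (ι → Bool) → ℝ := fun x => f x - m with hf0
  set V := variance μ f with hVdef
  have hV : V = mean μ fun x => f0 x ^ 2 := rfl
  have hV0 : 0 ≤ V := sum_nonneg fun x _ => mul_nonneg (hρ.1 x).le (sq_nonneg _)
  have hD : dirichlet μ f0 ≤ dirichlet μ f :=
    dirichlet_le_of_deriv2 hsymm hdiag fun i x => le_of_eq (by simp [hf0])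
  have hD0 := dirichlet_nonneg' (h := h) hsymm hdiag f
  rcases hV0.eq_or_lt with hz | hVp
  · rw [← hz]; positivity
  set R := √(V * exp a)
  have hR0 : 0 ≤ R := Real.sqrt_nonneg _
  have hR2 : R ^ 2 = V * exp a := Real.sq_sqrt (by positivity)
  set G : (ι → Bool) → ℝ := fun x => max (|f0 x| - R) 0 with hG
  set s : (ι → Bool) → ℝ := fun x => max (min (f0 x) R) (-R) with hs
  have hsG : ∀ x, |f0 x - s x| ≤ G x := fun x => by
    simp only [hG, hs]
    rcases le_total R |f0 x| with h1 | h1
    · rw [max_eq_left (sub_nonneg.2 h1)]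
      rcases abs_cases (f0 x) with ⟨e, h2⟩ | ⟨e, h2⟩
      · rw [e] at h1 ⊢
        rw [min_eq_right h1, max_eq_left (by linarith), abs_of_nonneg (by linarith)]
      · rw [e] at h1 ⊢
        rw [min_eq_left (by linarith), max_eq_right (by linarith), abs_of_nonpos (by linarith)]
        linarith
    · obtain ⟨h2, h3⟩ := abs_le.1 h1
      simp [min_eq_left h3, max_eq_left h2]
  -- the part above `R`
  have hG2 : (a - log 2 - d) * mean μ (fun x => G x ^ 2) ≤ C * dirichlet μ f := by
    refine (sq_mean_le_of_trap (T := fun x => R < |f0 x|) hsymm hdiag hC ht G (fun x hx => ?_) ?_).trans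
      (mul_le_mul_of_nonneg_left ((dirichlet_le_of_deriv2 hsymm hdiag fun i x => ?_).trans hD) hC)
    · simp only [hG]
      exact max_eq_right (sub_nonpos.2 (not_lt.1 hx))
    · have h1 : R ^ 2 * mean μ (fun x => if R < |f0 x| then 1 else 0) ≤ V := by
        rw [hV, mean, mul_sum]
        refine sum_le_sum fun x _ => ?_
        rw [← mul_assoc, mul_comm (R ^ 2), mul_assoc]
        refine mul_le_mul_of_nonneg_left ?_ (hρ.1 x).le
        split_ifs with hx
        · simp only [mul_one, ← sq_abs (f0 x)]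
          exact pow_le_pow_left₀ hR0 hx.le 2
        · simp [sq_nonneg]
      rw [exp_neg, ← one_div, le_div_iff₀ (exp_pos a)]
      rw [hR2] at h1
      refine le_of_mul_le_mul_left ?_ hVp
      linarith
    · refine (abs_max_sub_max_le_abs _ _ _).trans ?_
      rw [sub_sub_sub_cancel_right]
      exact abs_abs_sub_abs_le_abs_sub _ _
  -- the part below `R`
  have hs2 : variance μ s ≤ |C'| * dirichlet μ f + V / 4 := by
    refine (hw s R fun x => abs_le.2 ⟨le_max_right _ _, max_le (min_le_right _ _) (by linarith)⟩).trans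
      (add_le_add ?_ ?_)
    · refine (mul_le_mul_of_nonneg_right (le_abs_self C') (dirichlet_nonneg' hsymm hdiag s)).trans
        (mul_le_mul_of_nonneg_left ((dirichlet_le_of_deriv2 hsymm hdiag fun i x => ?_).trans hD)
          (abs_nonneg _))
      exact (abs_max_sub_max_le_abs _ _ _).trans (abs_min_sub_min_le_max _ _ _ _ |>.trans (by simp))
    · rw [hR2, mul_assoc, mul_comm V]
      calc exp a * r * V ≤ 1 / 4 * V := mul_le_mul_of_nonneg_right hr hV0
        _ = V / 4 := by ring
  -- the comparison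
  have hsplit : V ≤ 2 * variance μ s + 2 * mean μ (fun x => G x ^ 2) := by
    have hshift : V ≤ mean μ (fun x => (f0 x - mean μ s) ^ 2) := by
      have e0 : mean μ f0 = 0 := by
        simp only [mean, hf0, mul_sub, sum_sub_distrib, ← sum_mul, hρ.2, one_mul, hm]
        simp
      rw [hV]
      have e : ∀ x, μ x * (f0 x - mean μ s) ^ 2 =
          μ x * f0 x ^ 2 - 2 * mean μ s * (μ x * f0 x) + μ x * mean μ s ^ 2 := fun x => by ring
      simp only [mean] at e0 e ⊢
      simp only [e, sum_add_distrib, sum_sub_distrib, ← mul_sum, ← sum_mul, hρ.2, e0]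
      have := sq_nonneg (∑ x, μ x * s x)
      linarith
    refine hshift.trans ?_
    simp only [variance, mean, mul_sum, ← sum_add_distrib]
    refine sum_le_sum fun x _ => ?_
    have h1 : (f0 x - s x) ^ 2 ≤ G x ^ 2 := sq_le_sq.2 ((hsG x).trans (le_abs_self _))
    have h2 : (f0 x - ∑ y, μ y * s y) ^ 2 ≤
        2 * (s x - ∑ y, μ y * s y) ^ 2 + 2 * G x ^ 2 := by
      nlinarith [sq_nonneg (f0 x - s x - (s x - ∑ y, μ y * s y))]
    linarith [mul_le_mul_of_nonneg_left h2 (hρ.1 x).le]
  have hdiv : mean μ (fun x => G x ^ 2) ≤ C / (a - log 2 - d) * dirichlet μ f := by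
    rw [div_mul_eq_mul_div, le_div_iff₀ hpos]
    linarith
  linarith

/-- Spectral gap with high probability. -/
theorem gap_of_trap {β : ℝ} (hT : TrapStatement β) (hW : WeakPoincareStatement β) :
    ∃ κ > 0, Tendsto (fun n : ℕ => Measure.pi (fun _ : Fin n × Fin n => gaussianReal 0 1)
      (gapEvent β κ n)) atTop (𝓝 1) := by
  obtain ⟨C', c, hc, hW⟩ := hW
  obtain ⟨C, hT⟩ := hT (c / 4) (by positivity)
  set K := 4 * (|C'| + |C| * (8 / c)) + 1
  refine ⟨1 / K, by positivity, ?_⟩
  have hev : ∀ᶠ n : ℕ in atTop,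
      trapEvent β C (c / 4) n ∩ wpEvent β C' c n ⊆ gapEvent β (1 / K) n := by
    filter_upwards [eventually_ge_atTop ⌈8 / c⌉₊, eventually_ge_atTop 1] with n hn hn1 g hg f
    have hn8 : 8 ≤ c * n := by
      have := (Nat.le_ceil (8 / c)).trans (Nat.cast_le.2 hn)
      rwa [div_le_iff₀' hc] at this
    have hl2 : log 2 ≤ 1 := by linarith [log_le_sub_one_of_pos (zero_lt_two' ℝ)]
    have hpos : c * n / 8 ≤ c * n / 2 - log 2 - c / 4 * n := by linarith
    have hsymm := skCoupling_symm β g
    have hdiag := skCoupling_self β g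
    have h1 := variance_le_of_trap_wp (h := (0 : Fin n → ℝ)) (C := |C|) (C' := C')
      (a := c * n / 2) (d := c / 4 * n) (r := exp (-(c * n))) hsymm hdiag (abs_nonneg C)
      (by linarith) ?_ (fun F hF => (hg.1 F hF).trans (add_le_add (mul_le_mul_of_nonneg_right
        (le_abs_self C) (dirichlet_nonneg' hsymm hdiag _)) le_rfl)) hg.2 f
    · have hn1' : (1 : ℝ) ≤ n := Nat.one_le_cast.2 hn1
      have h2 : |C| / (c * n / 2 - log 2 - c / 4 * n) ≤ |C| * (8 / c) := by
        refine (div_le_div_of_nonneg_left (abs_nonneg C) (by linarith) hpos).trans ?_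
        rw [div_div_eq_mul_div, mul_div_assoc]
        refine mul_le_mul_of_nonneg_left (div_le_div_of_nonneg_left (by norm_num) hc ?_) (abs_nonneg C)
        exact le_mul_of_one_le_right hc.le hn1'
      rw [one_div_mul_eq_div, div_le_iff₀ (by positivity)]
      have hD := dirichlet_nonneg' (h := (0 : Fin n → ℝ)) hsymm hdiag f
      have := mul_le_mul_of_nonneg_right h2 hD
      simp only [K]
      linarith
    · rw [← exp_add]
      calc exp (c * n / 2 + -(c * n)) ≤ exp (-4) := exp_le_exp.2 (by linarith)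
        _ ≤ 1 / 4 := by
            rw [exp_neg, inv_le_comm₀ (exp_pos _) (by norm_num)]
            linarith [add_one_le_exp (4 : ℝ)]
  exact tendsto_of_tendsto_of_tendsto_of_le_of_le'
    (tendsto_inter (fun n => measurableSet_trapEvent β C _) (fun n => measurableSet_wpEvent β C' c) hT hW)
    tendsto_const_nhds (hev.mono fun n h => measure_mono h) (Eventually.of_forall fun n => prob_le_one)

end Vale.Agent.P150.Beta1
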