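import Mathlib
import Vale.Agent.P150.Beta1.Assembly.GapOfTrap

/-!
# Mixing from a defective entropy inequality and a spectral gap
-/

namespace Vale.Agent.P150.Beta1

open MeasureTheory ProbabilityTheory Finset Filter Real Function
open scoped ENNReal Topology

variable {ι : Type*} [Fintype ι] [DecidableEq ι] {J : ι → ι → ℝ} {h : ι → ℝ}

/-- Entropy decays exponentially up to the defect. -/
theorem ent_semigroup_le_defect (hsymm : ∀ i j, J i j = J j i) (hdiag : ∀ i, J i i = 0) {K : ℝ}
    (hK : 0 < K)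
    (hE : ∀ F : (ι → Bool) → ℝ, (∀ x, 0 < F x) →
      ent (gibbs J h) F ≤ K * ∑ i, siteEnt (gibbs J h) i F + K * mean (gibbs J h) F)
    {f : (ι → Bool) → ℝ} (hf : ∀ x, 0 < f x) {t : ℝ} (ht : 0 ≤ t) :
    ent (gibbs J h) (semigroup (gibbs J h) t f)
      ≤ K * mean (gibbs J h) f + exp (-t / K) * ent (gibbs J h) f := by
  set μ := gibbs J h with hμ
  have hρ : IsWeight μ := IsWeight.gibbs J h
  set m := mean μ f
  have hm : 0 < m := mean_pos hρ hf
  set F : ℝ → ℝ := fun u => exp (u / K) *
    (∑ x, μ x * (semigroup μ u f x * log (semigroup μ u f x)) - m * log m - K * m) with hF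
  have hpos : ∀ u, 0 ≤ u → ∀ x, 0 < semigroup μ u f x := fun u hu => semigroup_pos hρ hu hf
  have hent : ∀ u, 0 ≤ u → ent μ (semigroup μ u f)
      = ∑ x, μ x * (semigroup μ u f x * log (semigroup μ u f x)) - m * log m := fun u hu => by
    rw [ent_eq hρ (hpos u hu), mean_semigroup hsymm hdiag u f]
  have hd : ∀ u, 0 ≤ u → ∃ D, HasDerivAt F D u ∧ D ≤ 0 := by
    intro u hu
    set g := semigroup μ u f with hg
    have h1 : HasDerivAt (fun v => ∑ x, μ x * (semigroup μ v f x * log (semigroup μ v f x))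
        - m * log m - K * m) (∑ x, μ x * ((log (g x) + 1) * generator μ g x)) u := by
      refine ((HasDerivAt.fun_sum fun x _ => HasDerivAt.const_mul (μ x) ?_).sub_const _).sub_const _
      have := (semigroup_deriv_apply (ρ := μ) f u x).mul
        ((semigroup_deriv_apply (ρ := μ) f u x).log (hpos u hu x).ne')
      refine this.congr_deriv ?_
      rw [← hg]
      have hx : g x ≠ 0 := (hpos u hu x).ne'
      field_simp
    refine ⟨_, (((hasDerivAt_id u).div_const K).exp).mul h1, ?_⟩
    have h2 := sum_siteEnt_le (h := h) hsymm hdiag (hpos u hu)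
    have h3 := hE _ (hpos u hu)
    have h4 := mean_generator (h := h) hsymm hdiag g
    have h7 : mean μ g = m := mean_semigroup hsymm hdiag u f
    have h5 : ∑ x, μ x * ((log (g x) + 1) * generator μ g x)
        = mean μ (fun x => log (g x) * generator μ g x) + mean μ (generator μ g) := by
      simp only [mean, ← sum_add_distrib]
      exact sum_congr rfl fun x _ => by ring
    rw [← hg] at h2 h3
    rw [h7] at h3
    rw [h5, h4, add_zero, ← hent u hu, ← hg]
    simp only [id_eq]
    have h6 : exp (u / K) * (1 / K) * (ent μ g - K * m)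
        ≤ exp (u / K) * (1 / K) * (K * -mean μ fun x => log (g x) * generator μ g x) :=
      mul_le_mul_of_nonneg_left (by linarith [mul_le_mul_of_nonneg_left h2 hK.le]) (by positivity)
    have e : exp (u / K) * (1 / K) * (K * -mean μ fun x => log (g x) * generator μ g x)
        = -(exp (u / K) * mean μ fun x => log (g x) * generator μ g x) := by field_simp
    linarith
  have hanti : AntitoneOn F (Set.Ici 0) := by
    refine antitoneOn_of_deriv_nonpos (convex_Ici 0) (fun u hu => ?_) (fun u hu => ?_) fun u hu => ?_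
    · obtain ⟨D, hD, -⟩ := hd u hu
      exact hD.continuousAt.continuousWithinAt
    · rw [interior_Ici] at hu
      obtain ⟨D, hD, -⟩ := hd u (le_of_lt hu)
      exact hD.differentiableAt.differentiableWithinAt
    · rw [interior_Ici] at hu
      obtain ⟨D, hD, hD0⟩ := hd u (le_of_lt hu)
      rwa [hD.deriv]
  have h8 := hanti (Set.self_mem_Ici) ht ht
  simp only [hF, zero_div, exp_zero, one_mul] at h8
  rw [← hent t ht, ← hent 0 le_rfl, semigroup_zero] at h8
  have h9 : ent μ (semigroup μ t f) - K * m ≤ exp (-t / K) * (ent μ f - K * m) := by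
    rw [neg_div, exp_neg, ← div_eq_inv_mul, le_div_iff₀ (exp_pos _), mul_comm]
    exact h8
  have h10 : 0 ≤ exp (-t / K) * (K * m) := by positivity
  linarith

/-- Exponential decay in mean square from the gap. -/
theorem sq_semigroup_le (hsymm : ∀ i j, J i j = J j i) (hdiag : ∀ i, J i i = 0) {κ : ℝ}
    (hgap : ∀ f, κ * variance (gibbs J h) f ≤ dirichlet (gibbs J h) f)
    {f : (ι → Bool) → ℝ} (hf : mean (gibbs J h) f = 0) {t : ℝ} (ht : 0 ≤ t) :
    mean (gibbs J h) (fun x => semigroup (gibbs J h) t f x ^ 2)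
      ≤ exp (-(2 * κ * t)) * mean (gibbs J h) (fun x => f x ^ 2) := by
  set μ := gibbs J h with hμ
  set φ : ℝ → ℝ := fun u => exp (2 * κ * u) * ∑ x, μ x * semigroup μ u f x ^ 2 with hφ
  have hd : ∀ u, ∃ D, HasDerivAt φ D u ∧ D ≤ 0 := fun u => by
    set g := semigroup μ u f with hg
    have h1 : HasDerivAt (fun v => ∑ x, μ x * semigroup μ v f x ^ 2)
        (∑ x, μ x * (2 * g x * generator μ g x)) u :=
      HasDerivAt.fun_sum fun x _ => HasDerivAt.const_mul (μ x) (by
        simpa [Pi.pow_def] using (semigroup_deriv_apply (ρ := μ) f u x).pow 2)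
    refine ⟨_, (((hasDerivAt_id u).const_mul (2 * κ)).exp).mul h1, ?_⟩
    have e1 : ∑ x, μ x * (2 * g x * generator μ g x) = -(2 * dirichlet μ g) := by
      simp only [dirichlet, mean, mul_sum, neg_neg, mul_neg]
      exact sum_congr rfl fun x _ => by ring
    have e2 : ∑ x, μ x * g x ^ 2 = variance μ g := by
      have h0 : mean μ g = 0 := (mean_semigroup hsymm hdiag u f).trans hf
      simp [variance, mean, show ∑ x, μ x * g x = 0 from h0]
    rw [← hg, e1, e2]
    simp only [id_eq, mul_one]
    have := mul_le_mul_of_nonneg_left (hgap g) (exp_pos (2 * κ * u)).le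
    linarith
  have hanti : AntitoneOn φ (Set.Ici 0) := by
    refine antitoneOn_of_deriv_nonpos (convex_Ici 0) (fun u hu => ?_) (fun u hu => ?_) fun u hu => ?_
    · obtain ⟨D, hD, -⟩ := hd u
      exact hD.continuousAt.continuousWithinAt
    · obtain ⟨D, hD, -⟩ := hd u
      exact hD.differentiableAt.differentiableWithinAt
    · obtain ⟨D, hD, hD0⟩ := hd u
      rwa [hD.deriv]
  have h2 := hanti Set.self_mem_Ici ht ht
  simp only [hφ, mul_zero, exp_zero, one_mul, semigroup_zero] at h2
  rw [exp_neg, ← div_eq_inv_mul, le_div_iff₀ (exp_pos _), mul_comm]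
  exact h2

/-- Mean absolute decay from a gap and an entropy bound. -/
theorem abs_semigroup_sub_le (hsymm : ∀ i j, J i j = J j i) (hdiag : ∀ i, J i i = 0) {κ : ℝ}
    (hgap : ∀ f, κ * variance (gibbs J h) f ≤ dirichlet (gibbs J h) f)
    {f : (ι → Bool) → ℝ} (hf : ∀ x, 0 < f x) (hf1 : mean (gibbs J h) f = 1) {L : ℝ} (hL : 0 < L)
    {t : ℝ} (ht : 0 ≤ t) :
    mean (gibbs J h) (fun x => |semigroup (gibbs J h) t f x - 1|)
      ≤ exp L * exp (-(κ * t)) + 2 * ((ent (gibbs J h) f + log 2) / L) := by
  set μ := gibbs J h with hμ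
  have hρ : IsWeight μ := IsWeight.gibbs J h
  set R := exp L
  set a : (ι → Bool) → ℝ := fun x => min (f x) R with ha
  set b : (ι → Bool) → ℝ := fun x => f x - a x with hb
  have hb0 : ∀ x, 0 ≤ b x := fun x => sub_nonneg.2 (min_le_left _ _)
  set a0 : (ι → Bool) → ℝ := fun x => a x - mean μ a with ha0
  have hab : mean μ a + mean μ b = 1 := by
    rw [← hf1]
    simp only [mean, ← sum_add_distrib, ← mul_add, hb, add_sub_cancel]
  have e1 : ∀ x, semigroup μ t f x - 1 =
      semigroup μ t a0 x + (semigroup μ t b x - mean μ b) := fun x => by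
    have hfs : f = a0 + (fun _ => mean μ a) + b := by
      funext y
      simp [ha0, hb]
    conv_lhs => rw [hfs, map_add, map_add, semigroup_const hρ]
    simp only [Pi.add_apply]
    linarith
  have h2 : mean μ (fun x => |semigroup μ t a0 x|) ≤ R * exp (-(κ * t)) := by
    have hz : mean μ a0 = 0 := by
      simp only [mean, ha0, mul_sub, sum_sub_distrib, ← sum_mul, hρ.2, one_mul]
      simp
    have hv : mean μ (fun x => a0 x ^ 2) ≤ R ^ 2 := by
      calc mean μ (fun x => a0 x ^ 2) = mean μ (fun x => a x ^ 2) - mean μ a ^ 2 := by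
            have e : ∀ x, μ x * a0 x ^ 2 =
                μ x * a x ^ 2 - 2 * mean μ a * (μ x * a x) + μ x * mean μ a ^ 2 := fun x => by
              simp only [ha0]; ring
            simp only [mean] at e ⊢
            simp only [e, sum_add_distrib, sum_sub_distrib, ← mul_sum, ← sum_mul, hρ.2]
            ring
        _ ≤ mean μ (fun x => a x ^ 2) := by linarith [sq_nonneg (mean μ a)]
        _ ≤ ∑ x, μ x * R ^ 2 := sum_le_sum fun x _ => mul_le_mul_of_nonneg_left
            (pow_le_pow_left₀ (le_min (hf x).le (exp_pos L).le) (min_le_right _ _) 2) (hρ.1 x).le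
        _ = R ^ 2 := by rw [← sum_mul, hρ.2, one_mul]
    have hcs : mean μ (fun x => |semigroup μ t a0 x|) ^ 2
        ≤ mean μ (fun x => semigroup μ t a0 x ^ 2) := by
      have h := Finset.sum_sq_le_sum_mul_sum_of_sq_le_mul univ
        (r := fun x => μ x * |semigroup μ t a0 x|) (f := μ)
        (g := fun x => μ x * semigroup μ t a0 x ^ 2) (fun x _ => (hρ.1 x).le)
        (fun x _ => mul_nonneg (hρ.1 x).le (sq_nonneg _)) fun x _ => le_of_eq (by
          rw [mul_pow, sq_abs]; ring)
      rwa [hρ.2, one_mul] at h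
    have h3 := sq_semigroup_le hsymm hdiag hgap hz ht
    refine le_of_pow_le_pow_left₀ two_ne_zero (by positivity) (hcs.trans (h3.trans ?_))
    rw [mul_pow, mul_comm (R ^ 2), ← exp_nat_mul (-(κ * t))]
    exact mul_le_mul (le_of_eq (by push_cast; ring_nf)) hv
      (sum_nonneg fun x _ => mul_nonneg (hρ.1 x).le (sq_nonneg _)) (exp_pos _).le
  have h4 : mean μ b ≤ (ent μ f + log 2) / L := by
    rw [le_div_iff₀ hL]
    set φ : (ι → Bool) → ℝ := fun x => if R < f x then L else 0 with hφ
    have h5 := mean_mul_le_ent hρ hf φ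
    rw [hf1, one_mul] at h5
    have h6 : mean μ b * L ≤ mean μ fun x => f x * φ x := by
      rw [mean, sum_mul]
      refine sum_le_sum fun x _ => ?_
      rw [mul_assoc]
      refine mul_le_mul_of_nonneg_left ?_ (hρ.1 x).le
      simp only [hb, ha, hφ]
      split_ifs with hx
      · exact mul_le_mul_of_nonneg_right (by
          rw [min_eq_right hx.le]
          linarith [exp_pos L]) hL.le
      · rw [min_eq_left (not_lt.1 hx), sub_self, zero_mul, mul_zero]
    have h7 : log (mean μ fun x => exp (φ x)) ≤ log 2 := by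
      refine log_le_log (mean_pos hρ fun x => exp_pos _) ?_
      calc mean μ (fun x => exp (φ x)) ≤ ∑ x, (μ x + μ x * f x) := sum_le_sum fun x _ => by
            simp only [hφ]
            split_ifs with hx
            · linarith [mul_le_mul_of_nonneg_left hx.le (hρ.1 x).le, hρ.1 x]
            · rw [exp_zero, mul_one]
              linarith [mul_nonneg (hρ.1 x).le (hf x).le]
        _ = 2 := by rw [sum_add_distrib, hρ.2, show ∑ x, μ x * f x = 1 from hf1]; norm_num
    linarith
  have hPb : ∀ x, 0 ≤ semigroup μ t b x := semigroup_nonneg hρ ht hb0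
  have hmb : 0 ≤ mean μ b := sum_nonneg fun x _ => mul_nonneg (hρ.1 x).le (hb0 x)
  calc mean μ (fun x => |semigroup μ t f x - 1|)
      ≤ ∑ x, μ x * (|semigroup μ t a0 x| + (semigroup μ t b x + mean μ b)) :=
        sum_le_sum fun x _ => mul_le_mul_of_nonneg_left (by
          simp only [e1]
          refine (abs_add_le _ _).trans (add_le_add le_rfl ((abs_sub _ _).trans ?_))
          rw [abs_of_nonneg (hPb x), abs_of_nonneg hmb]) (hρ.1 x).le
    _ = mean μ (fun x => |semigroup μ t a0 x|) + 2 * mean μ b := by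
        simp only [mul_add, sum_add_distrib, ← sum_mul, hρ.2, one_mul]
        rw [show ∑ x, μ x * semigroup μ t b x = mean μ b from mean_semigroup hsymm hdiag t b]
        simp only [mean]
        ring
    _ ≤ _ := by linarith

/-- The total variation distance as a mean absolute deviation of the density. -/
lemma tvDist_eq_start (hsymm : ∀ i j, J i j = J j i) (hdiag : ∀ i, J i i = 0) (t : ℝ)
    (x : ι → Bool) :
    tvDist (gibbs J h) t x = mean (gibbs J h) (fun y => |semigroup (gibbs J h) t
      ((1 / (2 * gibbs J h x)) • (Pi.single x 1 : (ι → Bool) → ℝ) + fun _ => 1 / 2) y - 1|) := by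
  set μ := gibbs J h with hμ
  have hρ : IsWeight μ := IsWeight.gibbs J h
  have hμx := hρ.1 x
  have hrev : ∀ y, μ x * transProb μ t x y = μ y * semigroup μ t (Pi.single x 1) y := fun y => by
    have := semigroup_symm (h := h) hsymm hdiag t (Pi.single x 1) (Pi.single y 1)
    simp only [mean, Pi.single_apply, mul_ite, mul_one, mul_zero, sum_ite_eq', mem_univ,
      if_true, ite_mul, one_mul, zero_mul] at this
    simpa [transProb] using this.symm
  rw [tvDist, mean, sum_div]
  refine sum_congr rfl fun y _ => ?_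
  rw [map_add, map_smul, semigroup_const hρ]
  simp only [Pi.add_apply, Pi.smul_apply, smul_eq_mul]
  rw [← abs_of_pos (hρ.1 y), ← abs_mul, ← abs_two, ← abs_div, abs_two, abs_of_pos (hρ.1 y)]
  congr 1
  field_simp
  linear_combination hrev y

/-- Mixing from the defective inequality and the gap. -/
theorem tvDist_le_of_defect (hsymm : ∀ i j, J i j = J j i) (hdiag : ∀ i, J i i = 0) {K κ E : ℝ}
    (hK : 0 < K)
    (hE : ∀ F : (ι → Bool) → ℝ, (∀ x, 0 < F x) →
      ent (gibbs J h) F ≤ K * ∑ i, siteEnt (gibbs J h) i F + K * mean (gibbs J h) F)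
    (hgap : ∀ f, κ * variance (gibbs J h) f ≤ dirichlet (gibbs J h) f)
    (x : ι → Bool) {t₁ t₂ : ℝ} (ht₁ : 0 ≤ t₁) (ht₂ : 0 ≤ t₂)
    (hsmall : exp (-t₁ / K) * log (1 / gibbs J h x) ≤ E)
    (hlong : exp (16 * (K + E + 1)) * exp (-(κ * t₂)) ≤ 1 / 8) :
    tvDist (gibbs J h) (t₂ + t₁) x ≤ 1 / 4 := by
  set μ := gibbs J h with hμ
  have hρ : IsWeight μ := IsWeight.gibbs J h
  have hμx := hρ.1 x
  set g : (ι → Bool) → ℝ := (1 / (2 * μ x)) • (Pi.single x 1 : (ι → Bool) → ℝ) + fun _ => 1 / 2
    with hg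
  have hgv : ∀ y, g y = 1 / (2 * μ x) * (if y = x then 1 else 0) + 1 / 2 := fun y => by
    simp [hg, Pi.single_apply]
  have hgp : ∀ y, 0 < g y := fun y => by
    rw [hgv]
    split_ifs <;> positivity
  have hgm : mean μ g = 1 := by
    simp only [mean, hgv, mul_add, sum_add_distrib, ← sum_mul, hρ.2, mul_ite,
      mul_one, mul_zero, sum_ite_eq', mem_univ, if_true]
    field_simp
    ring
  have hx1 : μ x ≤ 1 := hρ.2 ▸ single_le_sum (fun y _ => (hρ.1 y).le) (mem_univ x)
  have hgb : ∀ y, g y ≤ 1 / μ x := fun y => by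
    rw [hgv]
    have h2 : 1 / (2 * μ x) = 1 / μ x / 2 := by ring
    have h3 : 1 ≤ 1 / μ x := (one_le_div hμx).2 hx1
    split_ifs <;> linarith
  have hent0 : ent μ g ≤ log (1 / μ x) := by
    rw [ent_eq hρ hgp, hgm, log_one, mul_zero, sub_zero]
    calc ∑ y, μ y * (g y * log (g y)) ≤ ∑ y, μ y * (g y * log (1 / μ x)) :=
          sum_le_sum fun y _ => mul_le_mul_of_nonneg_left
            (mul_le_mul_of_nonneg_left (log_le_log (hgp y) (hgb y)) (hgp y).le) (hρ.1 y).le
      _ = mean μ g * log (1 / μ x) := by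
          simp only [mean, sum_mul]; exact sum_congr rfl fun y _ => by ring
      _ = _ := by rw [hgm, one_mul]
  have h1 := ent_semigroup_le_defect hsymm hdiag hK hE hgp ht₁
  rw [hgm, mul_one] at h1
  have h2 : ent μ (semigroup μ t₁ g) ≤ K + E :=
    h1.trans (add_le_add le_rfl ((mul_le_mul_of_nonneg_left hent0 (exp_pos _).le).trans hsmall))
  have hp1 := semigroup_pos hρ ht₁ hgp
  have h0 : 0 ≤ ent μ (semigroup μ t₁ g) := ent_nonneg hρ hp1
  set L := 16 * (K + E + 1)
  have hL : 0 < L := by simp only [L]; linarith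
  have h3 := abs_semigroup_sub_le hsymm hdiag hgap hp1
    (by rw [mean_semigroup hsymm hdiag, hgm]) hL ht₂
  rw [tvDist_eq_start hsymm hdiag, ← hμ, ← hg, semigroup_add]
  refine h3.trans ?_
  have h4 : (ent μ (semigroup μ t₁ g) + log 2) / L ≤ 1 / 16 := by
    rw [div_le_iff₀ hL]
    simp only [L]
    linarith [log_le_sub_one_of_pos (zero_lt_two' ℝ)]
  linarith

end Vale.Agent.P150.Beta1
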