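import Mathlib
import Vale.Agent.P150.Beta1.Assembly.Mixing

/-!
# Fast mixing for all `β < 1` from the three inequalities
-/

namespace Vale.Agent.P150.Beta1

open MeasureTheory ProbabilityTheory Finset Filter Real
open scoped ENNReal Topology

/-- Gap and mixing at one inverse temperature. -/
theorem fastMixing_at {β : ℝ} (hβ : 0 ≤ β) (hT : TrapStatement β) (hW : WeakPoincareStatement β)
    (hD : DefectiveStatement β) :
    ∃ κ > 0, ∃ C > 0, Tendsto (fun n : ℕ =>
      Measure.pi (fun _ : Fin n × Fin n => gaussianReal 0 1)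
        {g | (∀ f : (Fin n → Bool) → ℝ,
            κ * Vale.Agent.P150.variance (gibbs (skCoupling β g) 0) f
              ≤ dirichlet (gibbs (skCoupling β g) 0) f) ∧
          ∀ t : ℝ, C * Real.log n ≤ t → ∀ x, tvDist (gibbs (skCoupling β g) 0) t x ≤ 1 / 4})
      atTop (𝓝 1) := by
  obtain ⟨κ, hκ, hG⟩ := gap_of_trap hT hW
  obtain ⟨C0, hD⟩ := hD
  set K := max C0 1
  have hK : 0 < K := lt_max_of_lt_right one_pos
  set E := 1 + 6 * β
  set u0 := (16 * (K + E + 1) + 8) / κ
  have hu0 : 0 ≤ u0 := div_nonneg (by simp only [E]; linarith) hκ.le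
  refine ⟨κ, hκ, K + 1, by linarith, ?_⟩
  have hev : ∀ᶠ n : ℕ in atTop, gapEvent β κ n ∩ (defEvent β C0 n ∩ normEvent β (6 * β) n) ⊆
      {g | (∀ f : (Fin n → Bool) → ℝ,
            κ * Vale.Agent.P150.variance (gibbs (skCoupling β g) 0) f
              ≤ dirichlet (gibbs (skCoupling β g) 0) f) ∧
          ∀ t : ℝ, (K + 1) * Real.log n ≤ t →
            ∀ x, tvDist (gibbs (skCoupling β g) 0) t x ≤ 1 / 4} := by
    filter_upwards [eventually_ge_atTop ⌈exp u0⌉₊, eventually_gt_atTop 0] with n hn hn0
    intro g hg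
    refine ⟨hg.1, fun t ht x => ?_⟩
    set μ := gibbs (skCoupling β g) (0 : Fin n → ℝ)
    have hρ : IsWeight μ := IsWeight.gibbs _ _
    have hE : ∀ F : (Fin n → Bool) → ℝ, (∀ x, 0 < F x) →
        ent μ F ≤ K * ∑ i, siteEnt μ i F + K * mean μ F := fun F hF =>
      (hg.2.1 F hF).trans (add_le_add
        (mul_le_mul_of_nonneg_right (le_max_left _ _)
          (sum_nonneg fun i _ => siteEnt_nonneg hρ hF i))
        (mul_le_mul_of_nonneg_right (le_max_left _ _) (mean_pos hρ hF).le))
    have hn' : (0 : ℝ) < n := Nat.cast_pos.2 hn0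
    have hlog : u0 ≤ log n := by
      rw [← exp_le_exp, exp_log hn']
      exact (Nat.le_ceil _).trans (Nat.cast_le.2 hn)
    have hKlog : 0 ≤ K * log n := mul_nonneg hK.le (hu0.trans hlog)
    have ht2 : u0 ≤ t - K * log n := by linarith
    have h := tvDist_le_of_defect (h := (0 : Fin n → ℝ)) (E := E) (skCoupling_symm β g)
      (skCoupling_self β g) hK hE hg.1 x hKlog (hu0.trans ht2) ?_ ?_
    · rwa [sub_add_cancel] at h
    · rw [show -(K * log n) / K = -log n by field_simp, exp_neg, exp_log hn']
      rw [← div_eq_inv_mul, div_le_iff₀ hn']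
      exact log_inv_gibbs_le hg.2.2 x
    · rw [← exp_add]
      calc exp (16 * (K + E + 1) + -(κ * (t - K * log n))) ≤ exp (-8) := by
            refine exp_le_exp.2 ?_
            have := mul_le_mul_of_nonneg_left ht2 hκ.le
            rw [show κ * u0 = 16 * (K + E + 1) + 8 from mul_div_cancel₀ _ hκ.ne'] at this
            linarith
        _ ≤ 1 / 8 := by
            rw [exp_neg, inv_le_comm₀ (exp_pos _) (by norm_num)]
            linarith [add_one_le_exp (8 : ℝ)]
  exact tendsto_of_tendsto_of_tendsto_of_le_of_le'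
    (tendsto_inter (fun n => measurableSet_gapEvent β κ)
      (fun n => (measurableSet_defEvent β C0).inter (measurableSet_normEvent β _)) hG
      (tendsto_inter (fun n => measurableSet_defEvent β C0) (fun n => measurableSet_normEvent β _) hD
        (tendsto_normEvent hβ)))
    tendsto_const_nhds (hev.mono fun n h => measure_mono h) (Eventually.of_forall fun n => prob_le_one)

/-- The full answer from the three inequalities. -/
theorem fastMixing_of (h : ∀ β : ℝ, 0 ≤ β → β < 1 →
    TrapStatement β ∧ WeakPoincareStatement β ∧ DefectiveStatement β) : FastMixingStatement :=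
  fun β hβ hβ1 => fastMixing_at hβ (h β hβ hβ1).1 (h β hβ hβ1).2.1 (h β hβ hβ1).2.2

end Vale.Agent.P150.Beta1
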